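import Mathlib

/-!
KB (helper437): kernel-verified nonnegativity of multivariate integer polynomials on boxes.

A polynomial expression `e : Ex` in the variables `x_0, ..., x_{n-1}` is written homogenised: every variable
`x_i` has a companion `w_i` (`W i k` = `w_i ^ k`) and the expression must be homogeneous in every pair
`(x_i, w_i)`.  The real statement is about `w = 1`.  On the box `a_i / 2^s ≤ x_i ≤ b_i / 2^s` put
`x_i = (a_i + b_i t_i) / (2^s (1 + t_i))`, `t_i ≥ 0`: the homogenised expression becomes an integer polynomial in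
the `t_i`; it is evaluated at `t_i = 2^(w σ_i)` (Kronecker packing), and all its coefficients are read off
from the digits of one big number.
-/

set_option autoImplicit false

namespace Crest.Agent.KB

open MvPolynomial

/-- homogenised polynomial expressions -/
inductive Ex where
  | c (n : ℤ)
  | X (i k : ℕ)
  | W (i k : ℕ)
  | add (a b : Ex)
  | sub (a b : Ex)
  | mul (a b : Ex)

/-- real value -/
noncomputable def Ex.val (x w : ℕ → ℝ) : Ex → ℝ
  | .c n => (n : ℝ)
  | .X i k => x i ^ k
  | .W i k => w i ^ k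
  | .add a b => a.val x w + b.val x w
  | .sub a b => a.val x w - b.val x w
  | .mul a b => a.val x w * b.val x w

/-- power of an integer with a fast path -/
def ipow : ℤ → ℕ → ℤ
  | .ofNat n, k => .ofNat (Nat.pow n k)
  | z, k => z ^ k

theorem ipow_eq (z : ℤ) (k : ℕ) : ipow z k = z ^ k := by
  cases z with
  | ofNat n => simp [ipow]
  | negSucc n => rfl

/-- packed value -/
noncomputable def Ex.pk (X W : ℕ → ℤ) (e : Ex) : ℤ :=
  Ex.rec (motive := fun _ => ℤ) (fun n => n) (fun i k => ipow (X i) k) (fun i k => ipow (W i) k)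
    (fun _ _ a b => Int.add a b) (fun _ _ a b => Int.sub a b) (fun _ _ a b => Int.mul a b) e

/-- homogeneous degree in the variable `i` -/
def Ex.hd (i : ℕ) : Ex → Option ℕ
  | .c _ => some 0
  | .X j k => some (if i = j then k else 0)
  | .W j k => some (if i = j then k else 0)
  | .add a b => match a.hd i, b.hd i with
      | some p, some q => if p = q then some p else none
      | _, _ => none
  | .sub a b => match a.hd i, b.hd i with
      | some p, some q => if p = q then some p else none
      | _, _ => none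
  | .mul a b => match a.hd i, b.hd i with
      | some p, some q => some (p + q)
      | _, _ => none

/-- only variables of index `< n` occur -/
def Ex.vok (n : ℕ) : Ex → Bool
  | .c _ => true
  | .X j _ => decide (j < n)
  | .W j _ => decide (j < n)
  | .add a b => a.vok n && b.vok n
  | .sub a b => a.vok n && b.vok n
  | .mul a b => a.vok n && b.vok n

/-- bound for the sum of the absolute values of the coefficients -/
def Ex.nrm (M : ℕ → ℕ) (s : ℕ) : Ex → ℕ
  | .c n => n.natAbs
  | .X i k => M i ^ k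
  | .W _ k => (2 ^ (s + 1)) ^ k
  | .add a b => a.nrm M s + b.nrm M s
  | .sub a b => a.nrm M s + b.nrm M s
  | .mul a b => a.nrm M s * b.nrm M s

/-- the polynomial in the variables `t_i` -/
noncomputable def Ex.toMv (a b : ℕ → ℤ) (s : ℕ) : Ex → MvPolynomial ℕ ℤ
  | .c n => C n
  | .X i k => (C (a i) + C (b i) * MvPolynomial.X i) ^ k
  | .W i k => (C (2 ^ s) + C (2 ^ s) * MvPolynomial.X i) ^ k
  | .add p q => p.toMv a b s + q.toMv a b s
  | .sub p q => p.toMv a b s - q.toMv a b s
  | .mul p q => p.toMv a b s * q.toMv a b s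

theorem Ex.eval_toMv (a b T : ℕ → ℤ) (s : ℕ) (e : Ex) :
    eval T (e.toMv a b s) = e.pk (fun i => a i + b i * T i) (fun i => 2 ^ s * (1 + T i)) := by
  induction e with
  | c n => simp [Ex.toMv, Ex.pk]
  | X i k => simp [Ex.toMv, Ex.pk, ipow_eq]
  | W i k => simp only [Ex.toMv, Ex.pk, ipow_eq, map_pow, map_add, map_mul, eval_C, eval_X]; ring
  | add p q hp hq => simp only [Ex.toMv, map_add, hp, hq]; rfl
  | sub p q hp hq => simp only [Ex.toMv, map_sub, hp, hq]; rfl
  | mul p q hp hq => simp only [Ex.toMv, map_mul, hp, hq]; rfl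

theorem Ex.eval₂_toMv (a b : ℕ → ℤ) (t : ℕ → ℝ) (s : ℕ) (e : Ex) :
    eval₂ (Int.castRingHom ℝ) t (e.toMv a b s) =
      e.val (fun i => (a i : ℝ) + (b i : ℝ) * t i) (fun i => 2 ^ s * (1 + t i)) := by
  induction e with
  | c n => simp only [Ex.toMv, Ex.val, eval₂_C, Int.coe_castRingHom]
  | X i k =>
    simp only [Ex.toMv, Ex.val, eval₂_pow, eval₂_add, eval₂_mul, eval₂_C, eval₂_X,
      Int.coe_castRingHom]
  | W i k =>
    simp only [Ex.toMv, Ex.val, eval₂_pow, eval₂_add, eval₂_mul, eval₂_C, eval₂_X,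
      Int.coe_castRingHom]
    push_cast
    ring
  | add p q hp hq => simp only [Ex.toMv, eval₂_add, hp, hq, Ex.val]
  | sub p q hp hq => simp only [Ex.toMv, eval₂_sub, hp, hq, Ex.val]
  | mul p q hp hq => simp only [Ex.toMv, eval₂_mul, hp, hq, Ex.val]

/-! ### degrees -/

theorem degreeOf_lin (i j : ℕ) (u v : ℤ) (k : ℕ) :
    degreeOf i ((C u + C v * MvPolynomial.X j : MvPolynomial ℕ ℤ) ^ k) ≤ if i = j then k else 0 := by
  refine (degreeOf_pow_le i _ k).trans ?_
  have h1 : degreeOf i (C u + C v * MvPolynomial.X j : MvPolynomial ℕ ℤ) ≤ if i = j then 1 else 0 := by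
    refine (degreeOf_add_le i _ _).trans (max_le ?_ ?_)
    · rw [degreeOf_C]; exact Nat.zero_le _
    · refine (degreeOf_C_mul_le _ i v).trans ?_
      rw [degreeOf_X]
  split_ifs with h
  · simp only [h, if_true] at h1
    subst h
    nlinarith
  · simp only [h, if_false] at h1
    have : degreeOf i (C u + C v * MvPolynomial.X j : MvPolynomial ℕ ℤ) = 0 := by omega
    rw [this, mul_zero]

theorem Ex.degreeOf_toMv (a b : ℕ → ℤ) (s i : ℕ) (e : Ex) :
    ∀ d, e.hd i = some d → degreeOf i (e.toMv a b s) ≤ d := by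
  induction e with
  | c n => intro d h; simp only [Ex.toMv, degreeOf_C]; exact Nat.zero_le _
  | X j k =>
    intro d h
    simp only [Ex.hd, Option.some.injEq] at h
    rw [← h]
    exact degreeOf_lin i j _ _ k
  | W j k =>
    intro d h
    simp only [Ex.hd, Option.some.injEq] at h
    rw [← h]
    exact degreeOf_lin i j _ _ k
  | add p q hp hq =>
    intro d h
    simp only [Ex.hd] at h
    cases hp1 : p.hd i with
    | none => simp [hp1] at h
    | some dp =>
      cases hq1 : q.hd i with
      | none => simp [hp1, hq1] at h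
      | some dq =>
        simp only [hp1, hq1] at h
        split_ifs at h with h2
        simp only [Option.some.injEq] at h
        subst h
        exact (degreeOf_add_le i _ _).trans (max_le (hp _ hp1) (h2 ▸ hq _ hq1))
  | sub p q hp hq =>
    intro d h
    simp only [Ex.hd] at h
    cases hp1 : p.hd i with
    | none => simp [hp1] at h
    | some dp =>
      cases hq1 : q.hd i with
      | none => simp [hp1, hq1] at h
      | some dq =>
        simp only [hp1, hq1] at h
        split_ifs at h with h2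
        simp only [Option.some.injEq] at h
        subst h
        refine (degreeOf_sub_le i _ _).trans (max_le (hp _ hp1) (h2 ▸ hq _ hq1))
  | mul p q hp hq =>
    intro d h
    simp only [Ex.hd] at h
    cases hp1 : p.hd i with
    | none => simp [hp1] at h
    | some dp =>
      cases hq1 : q.hd i with
      | none => simp [hp1, hq1] at h
      | some dq =>
        simp only [hp1, hq1, Option.some.injEq] at h
        subst h
        exact (degreeOf_mul_le i _ _).trans (Nat.add_le_add (hp _ hp1) (hq _ hq1))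

theorem Ex.hd_of_vok {n i : ℕ} (hi : n ≤ i) (e : Ex) (hv : e.vok n = true) : 
    ∀ d, e.hd i = some d → d = 0 := by
  induction e with
  | c n => intro d h; simpa [Ex.hd] using h.symm
  | X j k =>
    intro d h
    simp only [Ex.vok, decide_eq_true_eq] at hv
    have : i ≠ j := by omega
    simp [Ex.hd, this] at h; exact h.symm
  | W j k =>
    intro d h
    simp only [Ex.vok, decide_eq_true_eq] at hv
    have : i ≠ j := by omega
    simp [Ex.hd, this] at h; exact h.symm
  | add p q hp hq =>
    intro d h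
    simp only [Ex.vok, Bool.and_eq_true] at hv
    simp only [Ex.hd] at h
    cases hp1 : p.hd i with
    | none => simp [hp1] at h
    | some dp =>
      cases hq1 : q.hd i with
      | none => simp [hp1, hq1] at h
      | some dq =>
        simp only [hp1, hq1] at h
        split_ifs at h with h2
        simp only [Option.some.injEq] at h
        subst h
        exact hp hv.1 _ hp1
  | sub p q hp hq =>
    intro d h
    simp only [Ex.vok, Bool.and_eq_true] at hv
    simp only [Ex.hd] at h
    cases hp1 : p.hd i with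
    | none => simp [hp1] at h
    | some dp =>
      cases hq1 : q.hd i with
      | none => simp [hp1, hq1] at h
      | some dq =>
        simp only [hp1, hq1] at h
        split_ifs at h with h2
        simp only [Option.some.injEq] at h
        subst h
        exact hp hv.1 _ hp1
  | mul p q hp hq =>
    intro d h
    simp only [Ex.vok, Bool.and_eq_true] at hv
    simp only [Ex.hd] at h
    cases hp1 : p.hd i with
    | none => simp [hp1] at h
    | some dp =>
      cases hq1 : q.hd i with
      | none => simp [hp1, hq1] at h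
      | some dq =>
        simp only [hp1, hq1, Option.some.injEq] at h
        subst h
        rw [hp hv.1 _ hp1, hq hv.2 _ hq1]

theorem Ex.hd_isSome_of_vok {n i : ℕ} (hi : n ≤ i) (e : Ex) (hv : e.vok n = true) :
    e.hd i = some 0 := by
  induction e with
  | c n => rfl
  | X j k =>
    simp only [Ex.vok, decide_eq_true_eq] at hv
    have : i ≠ j := by omega
    simp [Ex.hd, this]
  | W j k =>
    simp only [Ex.vok, decide_eq_true_eq] at hv
    have : i ≠ j := by omega
    simp [Ex.hd, this]
  | add p q hp hq =>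
    simp only [Ex.vok, Bool.and_eq_true] at hv
    simp [Ex.hd, hp hv.1, hq hv.2]
  | sub p q hp hq =>
    simp only [Ex.vok, Bool.and_eq_true] at hv
    simp [Ex.hd, hp hv.1, hq hv.2]
  | mul p q hp hq =>
    simp only [Ex.vok, Bool.and_eq_true] at hv
    simp [Ex.hd, hp hv.1, hq hv.2]

/-! ### coefficient bounds -/

/-- `p` has a majorant whose value at `1` is at most `N` -/
def Maj (p : MvPolynomial ℕ ℤ) (N : ℤ) : Prop :=
  ∃ P : MvPolynomial ℕ ℤ, (∀ m, |coeff m p| ≤ coeff m P) ∧ eval (fun _ => (1 : ℤ)) P ≤ N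

theorem Maj.mono {p : MvPolynomial ℕ ℤ} {N N' : ℤ} (h : Maj p N) (hN : N ≤ N') : Maj p N' := by
  obtain ⟨P, h1, h2⟩ := h
  exact ⟨P, h1, h2.trans hN⟩

theorem eval_one_eq_sum (P : MvPolynomial ℕ ℤ) :
    eval (fun _ => (1 : ℤ)) P = ∑ m ∈ P.support, coeff m P := by
  rw [MvPolynomial.eval_eq]
  simp

theorem coeff_le_eval_one {P : MvPolynomial ℕ ℤ} (h : ∀ m, 0 ≤ coeff m P) (m : ℕ →₀ ℕ) :
    coeff m P ≤ eval (fun _ => (1 : ℤ)) P := by
  rw [eval_one_eq_sum]
  by_cases hm : m ∈ P.support
  · exact Finset.single_le_sum (f := fun m => coeff m P) (fun i _ => h i) hm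
  · rw [MvPolynomial.notMem_support_iff.mp hm]
    exact Finset.sum_nonneg (fun i _ => h i)

theorem eval_one_nonneg {P : MvPolynomial ℕ ℤ} (h : ∀ m, 0 ≤ coeff m P) :
    0 ≤ eval (fun _ => (1 : ℤ)) P := by
  rw [eval_one_eq_sum]
  exact Finset.sum_nonneg (fun i _ => h i)

theorem Maj.bound {p : MvPolynomial ℕ ℤ} {N : ℤ} (h : Maj p N) (m : ℕ →₀ ℕ) :
    |coeff m p| ≤ N := by
  obtain ⟨P, h1, h2⟩ := h
  exact (h1 m).trans ((coeff_le_eval_one (fun m => (abs_nonneg _).trans (h1 m)) m).trans h2)

theorem Maj.nonneg {p : MvPolynomial ℕ ℤ} {N : ℤ} (h : Maj p N) : 0 ≤ N :=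
  (abs_nonneg _).trans (h.bound 0)

theorem Maj.C (n : ℤ) : Maj (MvPolynomial.C n) |n| := by
  refine ⟨MvPolynomial.C |n|, ?_, by simp⟩
  intro m
  rw [coeff_C, coeff_C]
  split_ifs <;> simp

theorem Maj.X (i : ℕ) : Maj (MvPolynomial.X i) 1 := by
  refine ⟨MvPolynomial.X i, ?_, by simp⟩
  intro m
  rw [coeff_X]
  split_ifs <;> simp

theorem Maj.add {p q : MvPolynomial ℕ ℤ} {M N : ℤ} (hp : Maj p M) (hq : Maj q N) :
    Maj (p + q) (M + N) := by
  obtain ⟨P, h1, h2⟩ := hp
  obtain ⟨Q, h3, h4⟩ := hq
  refine ⟨P + Q, ?_, by rw [map_add]; exact add_le_add h2 h4⟩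
  intro m
  rw [coeff_add, coeff_add]
  exact (abs_add_le _ _).trans (add_le_add (h1 m) (h3 m))

theorem Maj.sub {p q : MvPolynomial ℕ ℤ} {M N : ℤ} (hp : Maj p M) (hq : Maj q N) :
    Maj (p - q) (M + N) := by
  obtain ⟨P, h1, h2⟩ := hp
  obtain ⟨Q, h3, h4⟩ := hq
  refine ⟨P + Q, ?_, by rw [map_add]; exact add_le_add h2 h4⟩
  intro m
  rw [coeff_sub, coeff_add]
  exact (abs_sub _ _).trans (add_le_add (h1 m) (h3 m))

theorem Maj.mul {p q : MvPolynomial ℕ ℤ} {M N : ℤ} (hp : Maj p M) (hq : Maj q N) :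
    Maj (p * q) (M * N) := by
  obtain ⟨P, h1, h2⟩ := hp
  obtain ⟨Q, h3, h4⟩ := hq
  have hP : ∀ m, 0 ≤ coeff m P := fun m => (abs_nonneg _).trans (h1 m)
  have hQ : ∀ m, 0 ≤ coeff m Q := fun m => (abs_nonneg _).trans (h3 m)
  refine ⟨P * Q, ?_, ?_⟩
  · intro m
    rw [coeff_mul, coeff_mul]
    refine (Finset.abs_sum_le_sum_abs _ _).trans (Finset.sum_le_sum fun x _ => ?_)
    rw [abs_mul]
    exact mul_le_mul (h1 _) (h3 _) (abs_nonneg _) (hP _)
  · rw [map_mul]
    exact mul_le_mul h2 h4 (eval_one_nonneg hQ) ((eval_one_nonneg hP).trans h2)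

theorem Maj.pow {p : MvPolynomial ℕ ℤ} {M : ℤ} (hp : Maj p M) (k : ℕ) : Maj (p ^ k) (M ^ k) := by
  induction k with
  | zero =>
    rw [pow_zero, pow_zero]
    have := Maj.C 1
    simpa using this
  | succ k ih =>
    rw [pow_succ, pow_succ]
    exact ih.mul hp

theorem Ex.maj_toMv (a b : ℕ → ℤ) (s : ℕ) (M : ℕ → ℕ) (hM : ∀ i, (a i).natAbs + (b i).natAbs ≤ M i)
    (e : Ex) : Maj (e.toMv a b s) (e.nrm M s : ℤ) := by
  induction e with
  | c n => simpa [Ex.toMv, Ex.nrm] using Maj.C n
  | X i k =>
    simp only [Ex.toMv, Ex.nrm]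
    push_cast
    refine Maj.pow (Maj.mono ((Maj.C (a i)).add ((Maj.C (b i)).mul (Maj.X i))) ?_) k
    have := hM i
    rw [mul_one]
    have h2 : |a i| + |b i| = (((a i).natAbs + (b i).natAbs : ℕ) : ℤ) := by push_cast; simp
    rw [h2]
    exact_mod_cast this
  | W i k =>
    simp only [Ex.toMv, Ex.nrm]
    push_cast
    refine Maj.pow (Maj.mono ((Maj.C (2 ^ s)).add ((Maj.C (2 ^ s)).mul (Maj.X i))) ?_) k
    rw [abs_of_nonneg (by positivity)]
    rw [pow_succ]; linarith
  | add p q hp hq => simpa [Ex.toMv, Ex.nrm] using hp.add hq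
  | sub p q hp hq => simpa [Ex.toMv, Ex.nrm] using hp.sub hq
  | mul p q hp hq => simpa [Ex.toMv, Ex.nrm] using hp.mul hq


/-! ### digits -/

theorem sum_lt_pow {B : ℕ} (g : ℕ → ℕ) (hg : ∀ k, g k < B) (K : ℕ) :
    ∑ k ∈ Finset.range K, g k * B ^ k < B ^ K := by
  induction K with
  | zero => simp
  | succ K ih =>
    rw [Finset.sum_range_succ, pow_succ]
    have h1 : g K + 1 ≤ B := hg K
    have h2 : (g K + 1) * B ^ K ≤ B * B ^ K := Nat.mul_le_mul_right _ h1
    rw [add_mul, one_mul] at h2
    rw [mul_comm (B ^ K) B]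
    omega

theorem digit_sum {B : ℕ} (hB : 0 < B) (g : ℕ → ℕ) (hg : ∀ k, g k < B) (K : ℕ) :
    ∀ j, j < K → (∑ k ∈ Finset.range K, g k * B ^ k) / B ^ j % B = g j := by
  induction K with
  | zero => intro j hj; omega
  | succ K ih =>
    intro j hj
    rw [Finset.sum_range_succ]
    rcases Nat.lt_succ_iff_lt_or_eq.mp hj with h | h
    · have e : g K * B ^ K = (g K * B ^ (K - j - 1) * B) * B ^ j := by
        rw [mul_assoc, mul_assoc, ← pow_succ', ← pow_add]
        congr 2
        omega
      rw [e, Nat.add_mul_div_right _ _ (pow_pos hB j), Nat.add_mul_mod_self_right]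
      exact ih j h
    · subst h
      rw [Nat.add_mul_div_right _ _ (pow_pos hB j), Nat.div_eq_of_lt (sum_lt_pow g hg j), zero_add,
        Nat.mod_eq_of_lt (hg j)]

/-- stride -/
def sg (Xs : ℕ → ℕ) (n : ℕ) : ℕ := ∏ j ∈ Finset.range n, Xs j

/-- flat index -/
def kap (Xs : ℕ → ℕ) (n : ℕ) (m : ℕ → ℕ) : ℕ := ∑ i ∈ Finset.range n, sg Xs i * m i

theorem kap_lt (Xs : ℕ → ℕ) (n : ℕ) (m : ℕ → ℕ) (hm : ∀ i, i < n → m i < Xs i) :
    kap Xs n m < sg Xs n := by
  induction n with
  | zero => simp [kap, sg]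
  | succ n ih =>
    have h1 := ih (fun i hi => hm i (by omega))
    have h2 : m n + 1 ≤ Xs n := hm n (by omega)
    have h3 : sg Xs n * (m n + 1) ≤ sg Xs n * Xs n := Nat.mul_le_mul_left _ h2
    have e1 : kap Xs (n + 1) m = kap Xs n m + sg Xs n * m n := by
      simp [kap, Finset.sum_range_succ]
    have e2 : sg Xs (n + 1) = sg Xs n * Xs n := by simp [sg, Finset.prod_range_succ]
    rw [e1, e2]
    rw [mul_add, mul_one] at h3
    omega

theorem kap_inj (Xs : ℕ → ℕ) (n : ℕ) (m m' : ℕ → ℕ) (hm : ∀ i, i < n → m i < Xs i)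
    (hm' : ∀ i, i < n → m' i < Xs i) (h : kap Xs n m = kap Xs n m') : ∀ i, i < n → m i = m' i := by
  induction n with
  | zero => intro i hi; omega
  | succ n ih =>
    have h1 := kap_lt Xs n m (fun i hi => hm i (by omega))
    have h2 := kap_lt Xs n m' (fun i hi => hm' i (by omega))
    have e1 : ∀ m : ℕ → ℕ, kap Xs (n + 1) m = kap Xs n m + m n * sg Xs n := by
      intro m; simp [kap, Finset.sum_range_succ, mul_comm]
    rw [e1, e1] at h
    have hpos : 0 < sg Xs n := by omega
    have e2 : (kap Xs n m + m n * sg Xs n) / sg Xs n = m n := by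
      rw [Nat.add_mul_div_right _ _ hpos, Nat.div_eq_of_lt h1, zero_add]
    have e3 : (kap Xs n m' + m' n * sg Xs n) / sg Xs n = m' n := by
      rw [Nat.add_mul_div_right _ _ hpos, Nat.div_eq_of_lt h2, zero_add]
    have e4 : m n = m' n := by rw [← e2, ← e3, h]
    have e5 : kap Xs n m = kap Xs n m' := by rw [e4] at h; omega
    intro i hi
    rcases Nat.lt_succ_iff_lt_or_eq.mp hi with h' | h'
    · exact ih (fun i hi => hm i (by omega)) (fun i hi => hm' i (by omega)) e5 i h'
    · rw [h']; exact e4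

theorem testBit_digit (x w j r : ℕ) (hr : r < w) :
    x.testBit (w * j + r) = (x / (2 ^ w) ^ j % 2 ^ w).testBit r := by
  rw [Nat.testBit_mod_two_pow, ← pow_mul, Nat.testBit_div_two_pow]
  simp [hr, add_comm]

/-- the mask with the top bit of every digit -/
def Hm (w K : ℕ) : ℕ := 2 ^ (w - 1) * ((2 ^ (w * K) - 1) / (2 ^ w - 1))

theorem Hm_eq (w K : ℕ) (hw : 0 < w) :
    Hm w K = ∑ k ∈ Finset.range K, 2 ^ (w - 1) * (2 ^ w) ^ k := by
  unfold Hm
  rw [← Finset.mul_sum, Nat.geomSum_eq (by
    calc 2 = 2 ^ 1 := rfl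
      _ ≤ 2 ^ w := Nat.pow_le_pow_right (by norm_num) hw), pow_mul]

theorem coeff_nonneg_of_land (w : ℕ) (hw : 0 < w) (n : ℕ) (Xs : ℕ → ℕ) (P : MvPolynomial ℕ ℤ)
    (hdeg : ∀ i, i < n → degreeOf i P < Xs i) (hvar : ∀ i, n ≤ i → degreeOf i P = 0)
    (hb : ∀ m, |coeff m P| < 2 ^ (w - 1))
    (hchk : Nat.land (eval (fun i => (2 : ℤ) ^ (w * sg Xs i)) P + (Hm w (sg Xs n) : ℤ)).toNat
      (Hm w (sg Xs n)) = Hm w (sg Xs n)) :
    ∀ m, 0 ≤ coeff m P := by
  classical
  set K := sg Xs n with hK
  have hms : ∀ m ∈ P.support, ∀ i, i < n → m i < Xs i := fun m hm i hi =>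
    lt_of_le_of_lt (monomial_le_degreeOf i hm) (hdeg i hi)
  have hm0 : ∀ m ∈ P.support, ∀ i, n ≤ i → m i = 0 := fun m hm i hi => by
    have := monomial_le_degreeOf i hm
    rw [hvar i hi] at this
    omega
  have hsup : ∀ m ∈ P.support, m.support ⊆ Finset.range n := by
    intro m hm i hi
    rw [Finsupp.mem_support_iff] at hi
    rw [Finset.mem_range]
    by_contra hc
    exact hi (hm0 m hm i (by omega))
  -- the packed value as a sum
  have hN : eval (fun i => (2 : ℤ) ^ (w * sg Xs i)) P =
      ∑ m ∈ P.support, coeff m P * ((2 : ℤ) ^ w) ^ kap Xs n m := by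
    rw [MvPolynomial.eval_eq]
    refine Finset.sum_congr rfl fun m hm => ?_
    congr 1
    rw [Finset.prod_subset (hsup m hm)]
    · rw [kap, Finset.prod_congr rfl (g := fun i => ((2 : ℤ) ^ w) ^ (sg Xs i * m i)),
        Finset.prod_pow_eq_pow_sum]
      intro i _
      rw [← pow_mul, ← pow_mul]
      ring_nf
    · intro i _ hi
      rw [Finsupp.notMem_support_iff.mp hi, pow_zero]
  have hkl : ∀ m ∈ P.support, kap Xs n m < K := fun m hm => kap_lt Xs n m (hms m hm)
  have hinj : ∀ m ∈ P.support, ∀ m' ∈ P.support, kap Xs n m = kap Xs n m' → m = m' := by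
    intro m hm m' hm' h
    ext i
    by_cases hi : i < n
    · exact kap_inj Xs n m m' (hms m hm) (hms m' hm') h i hi
    · rw [hm0 m hm i (by omega), hm0 m' hm' i (by omega)]
  -- digits
  let g : ℕ → ℤ := fun k => 2 ^ (w - 1) +
    ∑ m ∈ P.support.filter (fun m : ℕ →₀ ℕ => kap Xs n m = k), coeff m P
  have hg1 : ∀ m ∈ P.support, g (kap Xs n m) = 2 ^ (w - 1) + coeff m P := by
    intro m hm
    have : P.support.filter (fun m' : ℕ →₀ ℕ => kap Xs n m' = kap Xs n m) = {m} := by
      ext m'
      simp only [Finset.mem_filter, Finset.mem_singleton]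
      constructor
      · rintro ⟨h1, h2⟩
        exact hinj m' h1 m hm h2
      · rintro rfl
        exact ⟨hm, rfl⟩
    simp only [g]
    rw [this, Finset.sum_singleton]
  have h2w : (2 : ℤ) ^ w = 2 * 2 ^ (w - 1) := by
    rw [← pow_succ']
    congr 1
    omega
  have hg2 : ∀ k, 0 ≤ g k ∧ g k < 2 ^ w := by
    intro k
    by_cases hk : ∃ m ∈ P.support, kap Xs n m = k
    · obtain ⟨m, hm, rfl⟩ := hk
      rw [hg1 m hm]
      have := abs_lt.mp (hb m)
      rw [h2w]
      constructor <;> linarith [this.1, this.2]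
    · have : P.support.filter (fun m' : ℕ →₀ ℕ => kap Xs n m' = k) = ∅ := by
        ext m'
        simp only [Finset.mem_filter, Finset.notMem_empty, iff_false, not_and]
        intro h1 h2
        exact hk ⟨m', h1, h2⟩
      simp only [g]
      rw [this, Finset.sum_empty, add_zero, h2w]
      have : (0 : ℤ) < 2 ^ (w - 1) := by positivity
      constructor <;> linarith
  let gn : ℕ → ℕ := fun k => (g k).toNat
  have hgn : ∀ k, ((gn k : ℕ) : ℤ) = g k := fun k => Int.toNat_of_nonneg (hg2 k).1
  have hgn2 : ∀ k, gn k < 2 ^ w := by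
    intro k
    have := (hg2 k).2
    rw [← hgn k] at this
    exact_mod_cast this
  have hsum : eval (fun i => (2 : ℤ) ^ (w * sg Xs i)) P + (Hm w K : ℤ) =
      ((∑ k ∈ Finset.range K, gn k * (2 ^ w) ^ k : ℕ) : ℤ) := by
    rw [hN, Hm_eq w K hw]
    push_cast
    have e1 : ∀ k ∈ Finset.range K, ((gn k : ℕ) : ℤ) * (2 ^ w) ^ k =
        2 ^ (w - 1) * (2 ^ w) ^ k +
          ∑ m ∈ P.support.filter (fun m : ℕ →₀ ℕ => kap Xs n m = k),
            coeff m P * (2 ^ w) ^ kap Xs n m := by
      intro k _
      rw [hgn k]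
      simp only [g]
      rw [add_mul, Finset.sum_mul]
      congr 1
      refine Finset.sum_congr rfl fun m hm => ?_
      rw [(Finset.mem_filter.mp hm).2]
    rw [Finset.sum_congr rfl e1, Finset.sum_add_distrib, add_comm]
    congr 1
    exact (Finset.sum_fiberwise_of_maps_to (fun m hm => Finset.mem_range.mpr (hkl m hm)) _).symm
  rw [hsum, Int.toNat_natCast] at hchk
  intro m
  by_cases hm : m ∈ P.support
  swap
  · rw [MvPolynomial.notMem_support_iff.mp hm]
  have hj := hkl m hm
  have hB : 0 < 2 ^ w := by positivity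
  have hr : w - 1 < w := by omega
  have t1 : (Hm w K).testBit (w * kap Xs n m + (w - 1)) = true := by
    rw [testBit_digit _ _ _ _ hr, Hm_eq w K hw,
      digit_sum hB (fun _ => 2 ^ (w - 1)) (fun _ => Nat.pow_lt_pow_right (by norm_num) hr) K _ hj]
    exact Nat.testBit_two_pow_self
  have t2 : (∑ k ∈ Finset.range K, gn k * (2 ^ w) ^ k).testBit (w * kap Xs n m + (w - 1)) = true := by
    have h := t1
    rw [← hchk, Nat.land_eq, Nat.testBit_and, Bool.and_eq_true] at h
    exact h.1
  rw [testBit_digit _ _ _ _ hr, digit_sum hB gn hgn2 K _ hj] at t2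
  have t3 := Nat.ge_two_pow_of_testBit t2
  have t4 : (2 : ℤ) ^ (w - 1) ≤ g (kap Xs n m) := by
    rw [← hgn]
    exact_mod_cast t3
  rw [hg1 m hm] at t4
  linarith

/-! ### homogeneity and the real statement -/

theorem Ex.val_congr {n : ℕ} {x x' w w' : ℕ → ℝ} (hx : ∀ i, i < n → x i = x' i)
    (hw : ∀ i, i < n → w i = w' i) (e : Ex) (hv : e.vok n = true) : e.val x w = e.val x' w' := by
  induction e with
  | c n => rfl
  | X j k =>
    simp only [Ex.vok, decide_eq_true_eq] at hv
    simp [Ex.val, hx j hv]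
  | W j k =>
    simp only [Ex.vok, decide_eq_true_eq] at hv
    simp [Ex.val, hw j hv]
  | add p q hp hq =>
    simp only [Ex.vok, Bool.and_eq_true] at hv
    simp [Ex.val, hp hv.1, hq hv.2]
  | sub p q hp hq =>
    simp only [Ex.vok, Bool.and_eq_true] at hv
    simp [Ex.val, hp hv.1, hq hv.2]
  | mul p q hp hq =>
    simp only [Ex.vok, Bool.and_eq_true] at hv
    simp [Ex.val, hp hv.1, hq hv.2]

theorem prod_pow_ite (n j k : ℕ) (hj : j < n) (l : ℕ → ℝ) :
    ∏ i ∈ Finset.range n, l i ^ (if i = j then k else 0) = l j ^ k := by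
  rw [Finset.prod_eq_single j]
  · simp
  · intro b _ hb
    simp [hb]
  · intro h
    exact absurd (Finset.mem_range.mpr hj) h

theorem Ex.val_hom (n : ℕ) (x l : ℕ → ℝ) (e : Ex) (hv : e.vok n = true) :
    ∀ d : ℕ → ℕ, (∀ i, i < n → e.hd i = some (d i)) →
      e.val (fun i => l i * x i) l =
        (∏ i ∈ Finset.range n, l i ^ d i) * e.val x (fun _ => 1) := by
  induction e with
  | c m =>
    intro d hd
    have : ∏ i ∈ Finset.range n, l i ^ d i = 1 := by
      refine Finset.prod_eq_one fun i hi => ?_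
      have := hd i (Finset.mem_range.mp hi)
      simp only [Ex.hd, Option.some.injEq] at this
      rw [← this, pow_zero]
    rw [this, one_mul]; rfl
  | X j k =>
    intro d hd
    simp only [Ex.vok, decide_eq_true_eq] at hv
    have : ∏ i ∈ Finset.range n, l i ^ d i = l j ^ k := by
      rw [← prod_pow_ite n j k hv l]
      refine Finset.prod_congr rfl fun i hi => ?_
      have := hd i (Finset.mem_range.mp hi)
      simp only [Ex.hd, Option.some.injEq] at this
      rw [← this]
    rw [this]
    simp only [Ex.val]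
    rw [mul_pow]
  | W j k =>
    intro d hd
    simp only [Ex.vok, decide_eq_true_eq] at hv
    have : ∏ i ∈ Finset.range n, l i ^ d i = l j ^ k := by
      rw [← prod_pow_ite n j k hv l]
      refine Finset.prod_congr rfl fun i hi => ?_
      have := hd i (Finset.mem_range.mp hi)
      simp only [Ex.hd, Option.some.injEq] at this
      rw [← this]
    rw [this]
    simp only [Ex.val]
    rw [one_pow, mul_one]
  | add p q hp hq =>
    intro d hd
    simp only [Ex.vok, Bool.and_eq_true] at hv
    have h1 : (∀ i, i < n → p.hd i = some (d i)) ∧ (∀ i, i < n → q.hd i = some (d i)) := by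
      constructor <;>
      · intro i hi
        have h := hd i hi
        simp only [Ex.hd] at h
        cases hp1 : p.hd i with
        | none => simp [hp1] at h
        | some dp =>
          cases hq1 : q.hd i with
          | none => simp [hp1, hq1] at h
          | some dq =>
            simp only [hp1, hq1] at h
            split_ifs at h with h2
            simp only [Option.some.injEq] at h
            simp [← h, ← h2]
    simp only [Ex.val]
    rw [hp hv.1 d h1.1, hq hv.2 d h1.2]
    ring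
  | sub p q hp hq =>
    intro d hd
    simp only [Ex.vok, Bool.and_eq_true] at hv
    have h1 : (∀ i, i < n → p.hd i = some (d i)) ∧ (∀ i, i < n → q.hd i = some (d i)) := by
      constructor <;>
      · intro i hi
        have h := hd i hi
        simp only [Ex.hd] at h
        cases hp1 : p.hd i with
        | none => simp [hp1] at h
        | some dp =>
          cases hq1 : q.hd i with
          | none => simp [hp1, hq1] at h
          | some dq =>
            simp only [hp1, hq1] at h
            split_ifs at h with h2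
            simp only [Option.some.injEq] at h
            simp [← h, ← h2]
    simp only [Ex.val]
    rw [hp hv.1 d h1.1, hq hv.2 d h1.2]
    ring
  | mul p q hp hq =>
    intro d hd
    simp only [Ex.vok, Bool.and_eq_true] at hv
    have h1 : ∀ i, i < n → p.hd i = some ((p.hd i).getD 0) ∧ q.hd i = some ((q.hd i).getD 0) ∧
        d i = (p.hd i).getD 0 + (q.hd i).getD 0 := by
      intro i hi
      have h := hd i hi
      simp only [Ex.hd] at h
      cases hp1 : p.hd i with
      | none => simp [hp1] at h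
      | some dp =>
        cases hq1 : q.hd i with
        | none => simp [hp1, hq1] at h
        | some dq =>
          simp only [hp1, hq1, Option.some.injEq] at h
          simp [h.symm]
    simp only [Ex.val]
    rw [hp hv.1 (fun i => (p.hd i).getD 0) (fun i hi => (h1 i hi).1),
      hq hv.2 (fun i => (q.hd i).getD 0) (fun i hi => (h1 i hi).2.1)]
    have : ∏ i ∈ Finset.range n, l i ^ d i = (∏ i ∈ Finset.range n, l i ^ (p.hd i).getD 0) *
        ∏ i ∈ Finset.range n, l i ^ (q.hd i).getD 0 := by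
      rw [← Finset.prod_mul_distrib]
      refine Finset.prod_congr rfl fun i hi => ?_
      rw [(h1 i (Finset.mem_range.mp hi)).2.2, pow_add]
    rw [this]
    ring

theorem Ex.continuous_val (y : ℝ → ℕ → ℝ) (hy : ∀ i, Continuous fun r => y r i) (e : Ex) :
    Continuous fun r => e.val (y r) (fun _ => 1) := by
  induction e with
  | c n => simpa [Ex.val] using continuous_const
  | X j k => exact (hy j).pow k
  | W j k => simpa [Ex.val] using continuous_const
  | add p q hp hq => exact hp.add hq
  | sub p q hp hq => exact hp.sub hq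
  | mul p q hp hq => exact hp.mul hq

/-- strides, list version -/
def sgl : List ℕ → ℕ → ℕ
  | [], _ => 1
  | _ :: _, 0 => 1
  | x :: xs, i + 1 => x * sgl xs i

theorem sgl_eq (Xl : List ℕ) (i : ℕ) : sgl Xl i = sg (fun j => Xl.getD j 1) i := by
  induction Xl generalizing i with
  | nil => simp [sgl, sg]
  | cons x xs ih =>
    cases i with
    | zero => simp [sgl, sg]
    | succ i =>
      rw [sgl, ih i, sg, sg, Finset.prod_range_succ']
      simp [mul_comm]

/-- box: list of pairs -/
abbrev Box := List (ℤ × ℤ)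

def ba (b : Box) (i : ℕ) : ℤ := (b.getD i (0, 0)).1
def bb (b : Box) (i : ℕ) : ℤ := (b.getD i (0, 0)).2

/-- the box is well formed -/
def boxWf (M : List ℕ) (b : Box) : ℕ → Bool
  | 0 => true
  | n + 1 => decide (ba b n < bb b n) && Nat.ble ((ba b n).natAbs + (bb b n).natAbs) (M.getD n 0) &&
      boxWf M b n

theorem boxWf_sound (M : List ℕ) (b : Box) (n : ℕ) (h : boxWf M b n = true) :
    ∀ i, i < n → ba b i < bb b i ∧ (ba b i).natAbs + (bb b i).natAbs ≤ M.getD i 0 := by
  induction n with
  | zero => intro i hi; omega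
  | succ n ih =>
    simp only [boxWf, Bool.and_eq_true, decide_eq_true_eq, Nat.ble_eq] at h
    intro i hi
    rcases Nat.lt_succ_iff_lt_or_eq.mp hi with h' | h'
    · exact ih h.2 i h'
    · rw [h']; exact h.1

/-- static check of one expression -/
def statE (n w s : ℕ) (Xl M : List ℕ) (e : Ex) : Bool :=
  e.vok n && (List.range n).all (fun i => match e.hd i with
    | some d => Nat.blt d (Xl.getD i 1)
    | none => false) && Nat.blt (e.nrm (fun i => M.getD i 0) s) (2 ^ (w - 1))

/-- packed check of one expression on a box -/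
noncomputable def leafE (w s H : ℕ) (Xl : List ℕ) (b : Box) (e : Ex) : Bool :=
  Nat.beq (Nat.land (Int.toNat (Int.add (e.pk
    (fun i => Int.add (ba b i) (Int.mul (bb b i) (Int.ofNat (Nat.pow 2 (Nat.mul w (sgl Xl i))))))
    (fun i => Int.ofNat (Nat.mul (Nat.pow 2 s) (Nat.add 1 (Nat.pow 2 (Nat.mul w (sgl Xl i)))))))
    (Int.ofNat H))) H) H

theorem leafE_sound (n w s : ℕ) (Xl M : List ℕ) (hw : 0 < w) (b : Box)
    (hb0 : b.length = n)
    (hb : boxWf M b n = true) (e : Ex) (hs : statE n w s Xl M e = true)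
    (h : leafE w s (Hm w (sgl Xl n)) Xl b e = true) :
    ∀ m, 0 ≤ coeff m (e.toMv (ba b) (bb b) s) := by
  have hwf := boxWf_sound M b n hb
  simp only [statE, Bool.and_eq_true, List.all_eq_true, List.mem_range, Nat.blt_eq] at hs
  obtain ⟨⟨hv, hd⟩, hn⟩ := hs
  have hd' : ∀ i, i < n → ∃ d, e.hd i = some d ∧ d < Xl.getD i 1 := by
    intro i hi
    have := hd i hi
    cases h1 : e.hd i with
    | none => simp [h1] at this
    | some d =>
      simp only [h1, Nat.blt_eq] at this
      exact ⟨d, rfl, this⟩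
  refine coeff_nonneg_of_land w hw n (fun j => Xl.getD j 1) _ ?_ ?_ ?_ ?_
  · intro i hi
    obtain ⟨d, h1, h2⟩ := hd' i hi
    exact lt_of_le_of_lt (e.degreeOf_toMv _ _ s i d h1) h2
  · intro i hi
    exact Nat.le_zero.mp (e.degreeOf_toMv _ _ s i 0 (e.hd_isSome_of_vok hi hv))
  · intro m
    have hM : ∀ i, (ba b i).natAbs + (bb b i).natAbs ≤ (fun i => M.getD i 0) i := by
      intro i
      by_cases hi : i < n
      · exact (hwf i hi).2
      · have h1 : b.getD i (0, 0) = (0, 0) := by
          rw [List.getD_eq_default]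
          omega
        simp only [ba, bb, h1]
        simp
    have h1 := (e.maj_toMv (ba b) (bb b) s (fun i => M.getD i 0) hM).bound m
    refine lt_of_le_of_lt h1 ?_
    exact_mod_cast hn
  · rw [e.eval_toMv]
    simp only [leafE, Nat.beq_eq] at h
    rw [← sgl_eq]
    convert h using 3
    simp only [← sgl_eq]
    have e1 : ∀ i, ba b i + bb b i * 2 ^ (w * sgl Xl i) = Int.add (ba b i) (Int.mul (bb b i)
        (Int.ofNat (Nat.pow 2 (Nat.mul w (sgl Xl i))))) := by
      intro i
      change _ = ba b i + bb b i * ((2 ^ (w * sgl Xl i) : ℕ) : ℤ)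
      push_cast
      rfl
    have e2 : ∀ i, (2 : ℤ) ^ s * (1 + 2 ^ (w * sgl Xl i)) = Int.ofNat (Nat.mul (Nat.pow 2 s)
        (Nat.add 1 (Nat.pow 2 (Nat.mul w (sgl Xl i))))) := by
      intro i
      change _ = ((2 ^ s * (1 + 2 ^ (w * sgl Xl i)) : ℕ) : ℤ)
      push_cast
      rfl
    simp only [e1, e2]
    rfl

theorem eval₂_nonneg_of_coeff (P : MvPolynomial ℕ ℤ) (h : ∀ m, 0 ≤ coeff m P) (t : ℕ → ℝ)
    (ht : ∀ i, 0 ≤ t i) : 0 ≤ eval₂ (Int.castRingHom ℝ) t P := by
  rw [MvPolynomial.eval₂_eq]
  refine Finset.sum_nonneg fun m _ => mul_nonneg ?_ (Finset.prod_nonneg fun i _ => pow_nonneg (ht i) _)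
  simp only [Int.coe_castRingHom]
  exact_mod_cast h m

/-- half-open boxes -/
theorem val_nonneg_halfopen (n s : ℕ) (b : Box) (hb0 : b.length = n) (e : Ex) (hv : e.vok n = true)
    (hd : ∀ i, i < n → ∃ d, e.hd i = some d)
    (hc : ∀ m, 0 ≤ coeff m (e.toMv (ba b) (bb b) s)) (x : ℕ → ℝ)
    (hx : ∀ i, i < n → (ba b i : ℝ) ≤ x i * 2 ^ s ∧ x i * 2 ^ s < (bb b i : ℝ)) :
    0 ≤ e.val x (fun _ => 1) := by
  set t : ℕ → ℝ := fun i => if i < n then (x i * 2 ^ s - ba b i) / (bb b i - x i * 2 ^ s) else 0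
    with ht
  have ht0 : ∀ i, 0 ≤ t i := by
    intro i
    simp only [ht]
    split_ifs with hi
    · have := hx i hi
      exact div_nonneg (by linarith [this.1]) (by linarith [this.2])
    · exact le_rfl
  have h1 := eval₂_nonneg_of_coeff _ hc t ht0
  rw [e.eval₂_toMv] at h1
  set l : ℕ → ℝ := fun i => 2 ^ s * (1 + t i) with hl
  have hl0 : ∀ i, 0 < l i := fun i => by
    have := ht0 i
    simp only [hl]
    positivity
  have hx2 : ∀ i, i < n → (ba b i : ℝ) + (bb b i : ℝ) * t i = l i * x i := by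
    intro i hi
    have h2 := (hx i hi).2
    have h3 : (bb b i : ℝ) - x i * 2 ^ s ≠ 0 := by linarith
    simp only [hl, ht, hi, if_true]
    field_simp
    ring
  have e1 : e.val (fun i => (ba b i : ℝ) + (bb b i : ℝ) * t i) l = e.val (fun i => l i * x i) l :=
    e.val_congr (fun i hi => hx2 i hi) (fun _ _ => rfl) hv
  rw [e1, e.val_hom n x l hv (fun i => (e.hd i).getD 0)] at h1
  · have hp : 0 < ∏ i ∈ Finset.range n, l i ^ (e.hd i).getD 0 :=
      Finset.prod_pos fun i _ => pow_pos (hl0 i) _
    exact nonneg_of_mul_nonneg_right h1 hp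
  · intro i hi
    obtain ⟨d, h⟩ := hd i hi
    simp [h]

/-- membership in the closed box -/
def InBox (n s : ℕ) (b : Box) (x : ℕ → ℝ) : Prop :=
  ∀ i, i < n → (ba b i : ℝ) ≤ x i * 2 ^ s ∧ x i * 2 ^ s ≤ (bb b i : ℝ)

theorem val_nonneg_closed (n s : ℕ) (b : Box) (hb0 : b.length = n) (e : Ex) (hv : e.vok n = true)
    (hd : ∀ i, i < n → ∃ d, e.hd i = some d)
    (hab : ∀ i, i < n → ba b i < bb b i)
    (hc : ∀ m, 0 ≤ coeff m (e.toMv (ba b) (bb b) s)) (x : ℕ → ℝ) (hx : InBox n s b x) :
    0 ≤ e.val x (fun _ => 1) := by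
  have hcont : Continuous fun r : ℝ =>
      e.val (fun i => x i + r * ((ba b i : ℝ) / 2 ^ s - x i)) (fun _ => 1) :=
    e.continuous_val (fun r i => x i + r * ((ba b i : ℝ) / 2 ^ s - x i)) (fun i => by fun_prop)
  have h0 : Filter.Tendsto (fun r : ℝ =>
      e.val (fun i => x i + r * ((ba b i : ℝ) / 2 ^ s - x i)) (fun _ => 1))
      (nhdsWithin 0 (Set.Ioi 0)) (nhds (e.val x (fun _ => 1))) := by
    have := hcont.tendsto 0
    simp only [zero_mul, add_zero] at this
    exact this.mono_left nhdsWithin_le_nhds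
  refine ge_of_tendsto h0 ?_
  have hmem : Set.Ioo (0 : ℝ) 1 ∈ nhdsWithin (0 : ℝ) (Set.Ioi 0) := Ioo_mem_nhdsGT (by norm_num)
  filter_upwards [hmem] with r hr
  refine val_nonneg_halfopen n s b hb0 e hv hd hc _ ?_
  intro i hi
  have h1 := hx i hi
  have h2 : (ba b i : ℝ) < (bb b i : ℝ) := by exact_mod_cast hab i hi
  have hs : (0 : ℝ) < 2 ^ s := by positivity
  have e1 : (x i + r * ((ba b i : ℝ) / 2 ^ s - x i)) * 2 ^ s =
      (1 - r) * (x i * 2 ^ s) + r * (ba b i : ℝ) := by
    field_simp
    ring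
  rw [e1]
  obtain ⟨hr0, hr1⟩ := hr
  constructor
  · nlinarith [h1.1]
  · nlinarith [h1.1, h1.2]

/-- bisection trees -/
inductive Tr where
  | leaf (j : ℕ)
  | node (i : ℕ) (l r : Tr)

/-- replace component `i` -/
def Box.setc : Box → ℕ → ℤ × ℤ → Box
  | [], _, _ => []
  | _ :: xs, 0, p => p :: xs
  | x :: xs, i + 1, p => x :: Box.setc xs i p

theorem Box.length_setc (b : Box) (i : ℕ) (p : ℤ × ℤ) : (Box.setc b i p).length = b.length := by
  induction b generalizing i with
  | nil => rfl
  | cons x xs ih => cases i <;> simp [Box.setc, ih]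

theorem Box.getD_setc (b : Box) (i j : ℕ) (p : ℤ × ℤ) :
    (Box.setc b i p).getD j (0, 0) = if i = j ∧ j < b.length then p else b.getD j (0, 0) := by
  induction b generalizing i j with
  | nil => simp [Box.setc]
  | cons x xs ih =>
    cases i with
    | zero =>
      cases j with
      | zero => simp [Box.setc]
      | succ j => simp [Box.setc]
    | succ i =>
      cases j with
      | zero => simp [Box.setc]
      | succ j =>
        simp only [Box.setc, List.getD_cons_succ, ih, List.length_cons, Nat.add_right_cancel_iff,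
          Nat.add_lt_add_iff_right]

/-- all expressions of a clause -/
noncomputable def leafC (w s H : ℕ) (Xl : List ℕ) (b : Box) : List Ex → Bool
  | [] => true
  | e :: es => leafE w s H Xl b e && leafC w s H Xl b es

theorem leafC_mem (w s H : ℕ) (Xl : List ℕ) (b : Box) (cl : List Ex)
    (h : leafC w s H Xl b cl = true) : ∀ e ∈ cl, leafE w s H Xl b e = true := by
  induction cl with
  | nil => simp
  | cons a l ih =>
    simp only [leafC, Bool.and_eq_true] at h
    intro e he
    rcases List.mem_cons.mp he with rfl | he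
    · exact h.1
    · exact ih h.2 e he

/-- the checker -/
noncomputable def chk (n w s H : ℕ) (Xl M : List ℕ) (cls : List (List Ex)) : Tr → Box → Bool
  | .leaf j, b => boxWf M b n && (match cls[j]? with
      | some cl => leafC w s H Xl b cl
      | none => false)
  | .node i l r, b =>
      chk n w s H Xl M cls l (Box.setc b i (ba b i, (ba b i + bb b i) / 2)) &&
        chk n w s H Xl M cls r (Box.setc b i ((ba b i + bb b i) / 2, bb b i))

/-- static check -/
def stat (n w s : ℕ) (Xl M : List ℕ) (cls : List (List Ex)) (b : Box) : Bool :=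
  Nat.blt 0 w && Nat.beq b.length n && cls.all (fun cl => cl.all (fun e => statE n w s Xl M e))

theorem InBox_setc {n s : ℕ} {b : Box} {x : ℕ → ℝ} (hx : InBox n s b x) (i : ℕ) (p : ℤ × ℤ)
    (hp : (p.1 : ℝ) ≤ x i * 2 ^ s ∧ x i * 2 ^ s ≤ (p.2 : ℝ)) : InBox n s (Box.setc b i p) x := by
  intro j hj
  have h := hx j hj
  simp only [ba, bb, Box.getD_setc]
  split_ifs with h1
  · rw [← h1.1]; exact hp
  · exact h

theorem chk_sound (n w s : ℕ) (Xl M : List ℕ) (cls : List (List Ex)) (hw : 0 < w)
    (hst : ∀ cl ∈ cls, ∀ e ∈ cl, statE n w s Xl M e = true) (x : ℕ → ℝ) (tr : Tr) :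
    ∀ b : Box, b.length = n → chk n w s (Hm w (sgl Xl n)) Xl M cls tr b = true → InBox n s b x →
      ∃ cl ∈ cls, ∀ e ∈ cl, 0 ≤ e.val x (fun _ => 1) := by
  induction tr with
  | leaf j =>
    intro b hbl h hx
    simp only [chk, Bool.and_eq_true] at h
    obtain ⟨h1, h2⟩ := h
    cases hcl : cls[j]? with
    | none => simp [hcl] at h2
    | some cl =>
      simp only [hcl] at h2
      have hmem : cl ∈ cls := List.mem_of_getElem? hcl
      refine ⟨cl, hmem, fun e he => ?_⟩
      have hse := hst cl hmem e he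
      have hc := leafE_sound n w s Xl M hw b hbl h1 e hse (leafC_mem _ _ _ _ _ _ h2 e he)
      simp only [statE, Bool.and_eq_true, List.all_eq_true, List.mem_range] at hse
      obtain ⟨⟨hv, hd⟩, -⟩ := hse
      refine val_nonneg_closed n s b hbl e hv ?_ (fun i hi => (boxWf_sound M b n h1 i hi).1) hc x hx
      intro i hi
      have := hd i hi
      cases h3 : e.hd i with
      | none => simp [h3] at this
      | some d => exact ⟨d, rfl⟩
  | node i l r ihl ihr =>
    intro b hbl h hx
    simp only [chk, Bool.and_eq_true] at h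
    by_cases hi : i < n
    · have hxi := hx i hi
      rcases le_total (x i * 2 ^ s) (((ba b i + bb b i) / 2 : ℤ) : ℝ) with hm | hm
      · exact ihl _ (by rw [Box.length_setc, hbl]) h.1 (InBox_setc hx i _ ⟨hxi.1, hm⟩)
      · exact ihr _ (by rw [Box.length_setc, hbl]) h.2 (InBox_setc hx i _ ⟨hm, hxi.2⟩)
    · -- out of range index: the box is unchanged
      have hb2 : ∀ p, Box.setc b i p = b := by
        intro p
        apply List.ext_getElem (by rw [Box.length_setc])
        intro j h1 h2
        have h3 := Box.getD_setc b i j p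
        rw [List.getD_eq_getElem _ _ h1, List.getD_eq_getElem _ _ h2] at h3
        rw [h3, if_neg]
        rintro ⟨rfl, h4⟩
        omega
      rw [hb2] at h
      exact ihl b hbl h.1 hx

/-- the complete check -/
noncomputable def run (n w s : ℕ) (Xl M : List ℕ) (cls : List (List Ex)) (tr : Tr) (b : Box) : Bool :=
  stat n w s Xl M cls b && chk n w s (Hm w (sgl Xl n)) Xl M cls tr b

theorem run_sound (n w s : ℕ) (Xl M : List ℕ) (cls : List (List Ex)) (tr : Tr) (b : Box)
    (h : run n w s Xl M cls tr b = true) (x : ℕ → ℝ) (hx : InBox n s b x) :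
    ∃ cl ∈ cls, ∀ e ∈ cl, 0 ≤ e.val x (fun _ => 1) := by
  simp only [run, stat, Bool.and_eq_true, Nat.blt_eq, Nat.beq_eq, List.all_eq_true] at h
  obtain ⟨⟨⟨h1, h2⟩, h3⟩, h4⟩ := h
  exact chk_sound n w s Xl M cls h1 h3 x tr b h2 h4 hx

instance : Add Ex := ⟨Ex.add⟩
instance : Sub Ex := ⟨Ex.sub⟩
instance : Mul Ex := ⟨Ex.mul⟩

end Crest.Agent.KB
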