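import Crest.Agent.Tools.KB

/-!
Parameters for KB (helper437): a certificate box carries a natural number `N` whose 32-bit digits (shifted by
`2^31`) are the integer parameters `dg N 0, dg N 1, ...` of the clause used on that box.
-/

set_option autoImplicit false

namespace Crest.Agent.KB

/-- digit `i` of `N`, base `2^32`, shifted by `2^31` -/
def dg (N i : ℕ) : ℤ :=
  Int.sub (Int.ofNat (Nat.mod (Nat.div N (Nat.pow 2 (Nat.mul 32 i))) 4294967296)) 2147483648

end Crest.Agent.KB
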